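import Vale.Agent.P151.Lattice

open Vale.Agent.P151

theorem Vale.Agent.Results.P151.Lattice.result (d : ℕ) (hd : 2 ≤ d) :
    pc (lattice d) < 1 ∧ perc (lattice d) (pc (lattice d)) (infCluster (Fin d → ℤ)) = 0 :=
  lattice_crit d hd
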