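import Vale.Agent.P151.Lattice

open Vale.Agent.P151

theorem Vale.Agent.Results.P151.RankTwo.result :
    (∀ d : ℕ, 2 ≤ d →
      pc (lattice d) < 1 ∧ perc (lattice d) (pc (lattice d)) (infCluster (Fin d → ℤ)) = 0) ∧
    (∀ (V : Type) (G : SimpleGraph V) (φ : V → ℝ × ℝ), G.Connected →
      (∀ v, (G.neighborSet v).Finite) →
      (∃ R : Finset V, ∀ v, ∃ r ∈ R, ∃ γ : G ≃g G, (∃ c, ∀ w, φ (γ w) = φ w + c) ∧ γ r = v) →
      (∃ (γ₁ γ₂ : G ≃g G) (c₁ c₂ : ℝ × ℝ), (∀ w, φ (γ₁ w) = φ w + c₁) ∧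
        (∀ w, φ (γ₂ w) = φ w + c₂) ∧ c₁.1 * c₂.2 - c₁.2 * c₂.1 ≠ 0) →
      pc G < 1 → perc G (pc G) (infCluster V) = 0) ∧
    (∀ (Γ : Type) [Group Γ] (S : Set Γ) (H : Subgroup Γ) (χ : H →* Multiplicative (ℤ × ℤ)),
      S.Finite → Subgroup.closure S = ⊤ → H.FiniteIndex → Function.Surjective χ →
      pc (SimpleGraph.mulCayley S) < 1 →
      perc (SimpleGraph.mulCayley S) (pc (SimpleGraph.mulCayley S)) (infCluster Γ) = 0) := by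
  refine ⟨lattice_crit, ?_, fun Γ _ S H χ a b c d e => cayley_crit S a b H c χ d e⟩
  rintro V G φ hc hf ⟨R, hR⟩ ⟨γ1, γ2, c1, c2, h1, h2, h3⟩ h
  let _ : G.LocallyFinite := fun x => (hf x).fintype
  exact crit_general hc φ R hR γ1 γ2 c1 c2 h1 h2 h3 h
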